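import Vale.Agent.P199.K.Pins
import Vale.Agent.P199.K.HS.Graded

/-!
P199: homogenising a weight-homogeneous polynomial in the coordinates by powers of the `t`.
-/

namespace Vale.Agent.P199.K.Homog

open MvPolynomial
open scoped BigOperators

variable {p r : ℕ} {F : Type} [Field F] [Algebra ℂ F]

/-- The inverse of a monomial in the roots. -/
noncomputable def U (u : Co r → F) (d : Co r →₀ ℕ) : F := d.prod fun i n => ((u i) ^ n)⁻¹

theorem U_add (u : Co r → F) (d d' : Co r →₀ ℕ) : U u (d + d') = U u d * U u d' := by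
  classical
  unfold U
  refine Finsupp.prod_add_index (by simp) ?_
  intro i _ a b
  rw [pow_add, mul_inv]

theorem U_zero (u : Co r → F) : U u 0 = 1 := Finsupp.prod_zero_index

theorem U_ne (u : Co r → F) (hu : ∀ i, u i ≠ 0) (d : Co r →₀ ℕ) : U u d ≠ 0 :=
  Finset.prod_ne_zero_iff.2 fun i _ => inv_ne_zero (pow_ne_zero _ (hu i))

/-- The degree of a coordinate. -/
noncomputable def W0 (p r : ℕ) [NeZero r] (v : XY p r) : Co r →₀ ℕ := tdeg p r (xyWt p r v)

/-- The point given by a map killing the equations and roots of the `t`. -/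
noncomputable def pt [NeZero r] {σ : Type} (ex : XY p r → σ) (ψ : MvPolynomial σ ℂ →ₐ[ℂ] F)
    (u : Co r → F) : MvPolynomial (XY p r) ℂ →ₐ[ℂ] F :=
  aeval fun v => U u (W0 p r v) * ψ (X (ex v))

variable [NeZero r]

theorem tdeg_cast (hp : p.Prime) (a : Gp p r) (i : Co r) :
    ((tdeg p r a i : ℕ) : ZMod p) = a i := by
  haveI : NeZero p := ⟨hp.ne_zero⟩
  unfold tdeg
  split_ifs with h
  · subst h
    rcases eq_or_ne (Sum.inl 0) i with rfl | hi
    · simp
    · rw [Finsupp.single_eq_of_ne' hi]; simp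
  · simp

theorem tdeg_ne (hp : p.Prime) (a : Gp p r) : tdeg p r a ≠ 0 := by
  intro h
  by_cases ha : a = 0
  · rw [tdeg, if_pos ha, Finsupp.single_eq_zero] at h
    exact hp.ne_zero h
  · exact ha (funext fun i => by rw [← tdeg_cast hp a i, h]; simp)

theorem weight_cast (hp : p.Prime) (m : XY p r →₀ ℕ) (i : Co r) :
    ((Finsupp.weight (W0 p r) m i : ℕ) : ZMod p) = Finsupp.weight (xyWt p r) m i := by
  induction m using Finsupp.induction_linear with
  | zero => simp
  | add f g hf hg =>
    rw [map_add, map_add, Finsupp.add_apply, Pi.add_apply, Nat.cast_add, hf, hg]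
  | single v n =>
    rw [Finsupp.weight_single, Finsupp.weight_single, Finsupp.smul_apply, Pi.smul_apply,
      smul_eq_mul, Nat.cast_mul, W0, tdeg_cast hp, nsmul_eq_mul]

theorem lin_single (i : Co r) : lin p (Finsupp.single i p) = 0 := by
  rw [lin, Finsupp.sum_single_index (by simp)]
  simp

theorem lin_ne (hp : p.Prime) (b : Gp p r) (hb : b ≠ 0) (L : Co r →₀ ℕ) :
    lin p (tdeg p r b + p • L) ≠ 0 := by
  classical
  obtain ⟨i, hi⟩ := Function.ne_iff.1 hb
  intro h
  apply hi
  have h1 := congrArg (eval (Pi.single i (1 : ZMod p))) h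
  rw [lin, Finsupp.sum_fintype _ _ (by simp), map_sum, map_zero,
    Finset.sum_eq_single i (fun j _ hj => by simp [Pi.single_eq_of_ne hj]) (by simp)] at h1
  simpa [tdeg_cast hp] using h1

variable {σ : Type} (ex : XY p r → σ) (tv : Co r → σ)

omit [NeZero r] in
theorem psi_tmon (ψ : MvPolynomial σ ℂ →ₐ[ℂ] F) (u : Co r → F) (ht : ∀ i, ψ (X (tv i)) = u i ^ p)
    (hu : ∀ i, u i ≠ 0) (K : Co r →₀ ℕ) :
    U u (p • K) * ψ (rename tv (monomial K (1 : ℂ))) = 1 := by
  induction K using Finsupp.induction_linear with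
  | zero => simp [U_zero]
  | add f g hf hg =>
    rw [smul_add, U_add, show monomial (f + g) (1 : ℂ) = monomial f 1 * monomial g 1 by
      rw [monomial_mul, one_mul], map_mul, map_mul, mul_mul_mul_comm, hf, hg, one_mul]
  | single i n =>
    rw [Finsupp.smul_single, ← X_pow_eq_monomial, map_pow, rename_X, map_pow, ht, U,
      Finsupp.prod_single_index (by simp), smul_eq_mul, ← pow_mul]
    exact inv_mul_cancel₀ (pow_ne_zero _ (hu i))

theorem psi_xmon (ψ : MvPolynomial σ ℂ →ₐ[ℂ] F) (u : Co r → F) (m : XY p r →₀ ℕ) :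
    U u (Finsupp.weight (W0 p r) m) * ψ (rename ex (monomial m (1 : ℂ))) =
      pt ex ψ u (monomial m 1) := by
  induction m using Finsupp.induction_linear with
  | zero => simp [U_zero]
  | add f g hf hg =>
    rw [map_add, U_add, show monomial (f + g) (1 : ℂ) = monomial f 1 * monomial g 1 by
      rw [monomial_mul, one_mul], map_mul, map_mul, map_mul, mul_mul_mul_comm, hf, hg]
  | single v n =>
    rw [Finsupp.weight_single, ← X_pow_eq_monomial, map_pow, rename_X, map_pow, map_pow, pt,
      aeval_X, mul_pow]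
    congr 1
    induction n with
    | zero => simp [U_zero]
    | succ n ih => rw [succ_nsmul, U_add, ih, pow_succ]

variable (w : σ → Co r →₀ ℕ)

omit [NeZero r] in
theorem tmon_hom (htv : ∀ i, w (tv i) = Finsupp.single i p) (K : Co r →₀ ℕ) :
    IsWeightedHomogeneous w (rename tv (monomial K (1 : ℂ))) (p • K) := by
  refine Gr.rename_hom (fun i => Finsupp.single i p) tv htv
    (isWeightedHomogeneous_monomial _ _ _ ?_)
  induction K using Finsupp.induction_linear with
  | zero => simp
  | add f g hf hg => rw [map_add, hf, hg, smul_add]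
  | single i n => rw [Finsupp.weight_single, Finsupp.smul_single, Finsupp.smul_single]; simp [mul_comm]

/-- Homogenisation. -/
theorem homogenize (hp : p.Prime) (hex : ∀ v, w (ex v) = W0 p r v)
    (htv : ∀ i, w (tv i) = Finsupp.single i p) {c : MvPolynomial (XY p r) ℂ} {a : Gp p r}
    (hc : IsWeightedHomogeneous (xyWt p r) c a) :
    ∃ (L : Co r →₀ ℕ) (φ : MvPolynomial σ ℂ), IsWeightedHomogeneous w φ (tdeg p r a + p • L) ∧
      ∀ (F : Type) [Field F] [Algebra ℂ F] (ψ : MvPolynomial σ ℂ →ₐ[ℂ] F) (u : Co r → F),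
        (∀ i, ψ (X (tv i)) = u i ^ p) → (∀ i, u i ≠ 0) →
          U u (tdeg p r a + p • L) * ψ φ = pt ex ψ u c := by
  induction hc using IsWeightedHomogeneous.induction_on with
  | zero =>
    refine ⟨0, 0, isWeightedHomogeneous_zero ℂ _ _, ?_⟩
    intros
    simp
  | add c₁ c₂ _ _ h1 h2 =>
    obtain ⟨L₁, φ₁, hφ₁, he₁⟩ := h1
    obtain ⟨L₂, φ₂, hφ₂, he₂⟩ := h2
    refine ⟨L₁ + L₂, φ₁ * rename tv (monomial L₂ (1 : ℂ)) + φ₂ * rename tv (monomial L₁ (1 : ℂ)),
      ?_, ?_⟩
    · refine IsWeightedHomogeneous.add ?_ ?_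
      · rw [smul_add, ← add_assoc]
        exact hφ₁.mul (tmon_hom tv w htv L₂)
      · rw [smul_add, add_comm (p • L₁), ← add_assoc]
        exact hφ₂.mul (tmon_hom tv w htv L₁)
    · intro F _ _ ψ u ht hu
      have e1 := he₁ F ψ u ht hu
      have e2 := he₂ F ψ u ht hu
      have t1 := psi_tmon tv ψ u ht hu L₁
      have t2 := psi_tmon tv ψ u ht hu L₂
      rw [map_add (pt ex ψ u), ← e1, ← e2, smul_add, map_add, map_mul, map_mul, U_add, U_add,
        U_add, U_add]
      linear_combination (U u (tdeg p r a) * U u (p • L₁) * ψ φ₁) * t2 +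
        (U u (tdeg p r a) * U u (p • L₂) * ψ φ₂) * t1
  | monomial m c hm =>
    let W := Finsupp.weight (W0 p r) m
    let K : Co r →₀ ℕ := Finsupp.equivFunOnFinite.symm fun i => (tdeg p r a i + p * W i - W i) / p
    have hK : tdeg p r a + p • W = W + p • K := by
      refine Finsupp.ext fun i => ?_
      simp only [Finsupp.add_apply, Finsupp.smul_apply, smul_eq_mul, K,
        Finsupp.equivFunOnFinite_symm_apply_apply]
      have hle : W i ≤ tdeg p r a i + p * W i :=
        le_trans (Nat.le_mul_of_pos_left _ hp.pos) (Nat.le_add_left _ _)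
      have hdvd : p ∣ tdeg p r a i + p * W i - W i := by
        rw [← ZMod.natCast_eq_zero_iff, Nat.cast_sub hle, Nat.cast_add, Nat.cast_mul,
          ZMod.natCast_self, zero_mul, add_zero, tdeg_cast hp, weight_cast hp, hm, sub_self]
      rw [Nat.mul_div_cancel' hdvd]
      omega
    refine ⟨W, C c * (rename ex (monomial m (1 : ℂ)) * rename tv (monomial K (1 : ℂ))), ?_, ?_⟩
    · rw [hK]
      exact (((Gr.rename_hom (W0 p r) ex hex (isWeightedHomogeneous_monomial _ _ _ rfl)).mul
        (tmon_hom tv w htv K))).C_mul c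
    · intro F _ _ ψ u ht hu
      rw [hK, U_add, map_mul, map_mul, show monomial m c = C c * monomial m (1 : ℂ) by
        rw [C_mul_monomial, mul_one], map_mul (pt ex ψ u), ← psi_xmon ex ψ u m]
      simp only [← algebraMap_eq, AlgHom.commutes]
      have t1 := psi_tmon tv ψ u ht hu K
      linear_combination (algebraMap ℂ F c * U u W * ψ (rename ex (monomial m (1 : ℂ)))) * t1

end Vale.Agent.P199.K.Homog
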