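import Vale.Agent.P199.K.Pins
import Vale.Agent.P199.K.HS.Graded

/-!
P199: eliminating finitely many variables of degree zero modulo `p`, cutting by finitely many
equations, and missing the variables of degree zero modulo `p`.
-/

namespace Vale.Agent.P199.K.Elim

open MvPolynomial

variable {ι : Type} [Fintype ι] {p : ℕ}

theorem elimFin (hren : RenamePin) (hvar : VarPin) (hp : p.Prime) :
    ∀ (n : ℕ) (σ : Type) [Fintype σ] (w : σ ⊕ Fin n → ι →₀ ℕ), (∀ v, w v ≠ 0) →
    ∀ (P : Ideal (MvPolynomial (σ ⊕ Fin n) ℂ)) (q : Fin n → MvPolynomial σ ℂ),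
      Good w p P → (∀ j, IsWeightedHomogeneous (fun v => w (Sum.inl v)) (q j) (w (Sum.inr j))) →
      (∀ j, lin p (w (Sum.inr j)) = 0) →
      ∃ Q : Ideal (MvPolynomial σ ℂ), Good (fun v => w (Sum.inl v)) p Q ∧
        P.map (aeval (Sum.elim X q) : MvPolynomial (σ ⊕ Fin n) ℂ →ₐ[ℂ] MvPolynomial σ ℂ) ≤ Q ∧
        codim Q ≤ codim P := by
  intro n
  induction n with
  | zero =>
    intro σ _ w hw P q hP _ _
    let e : σ ⊕ Fin 0 ≃ σ := Equiv.sumEmpty σ (Fin 0)
    have he : (fun v => (fun u => w (Sum.inl u)) (e v)) = w := by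
      funext v
      rcases v with v | j
      exacts [rfl, j.elim0]
    obtain ⟨h1, h2⟩ := hren (σ ⊕ Fin 0) σ ι e (fun u => w (Sum.inl u)) p P (by rwa [he])
    have hmap : (aeval (Sum.elim X q) : MvPolynomial (σ ⊕ Fin 0) ℂ →ₐ[ℂ] MvPolynomial σ ℂ) =
        rename e := algHom_ext fun v => by
      rcases v with v | j
      · simp [e]
      · exact j.elim0
    exact ⟨_, h1, by rw [hmap], h2.le⟩
  | succ n ih =>
    intro σ _ w hw P q hP hq hl
    let e : σ ⊕ Fin (n + 1) ≃ Option (σ ⊕ Fin n) :=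
      { toFun := Sum.elim (fun v => some (Sum.inl v))
          fun j => (finSuccEquivLast j).map Sum.inr
        invFun := fun o => o.elim (Sum.inr (Fin.last n)) (Sum.map id Fin.castSucc)
        left_inv := by
          rintro (v | j)
          · rfl
          · induction j using Fin.lastCases with
            | last => simp
            | cast j => simp
        right_inv := by
          rintro (_ | v | j) <;> simp }
    let w' : Option (σ ⊕ Fin n) → ι →₀ ℕ := fun o => w (e.symm o)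
    have hw' : ∀ o, w' o ≠ 0 := fun o => hw _
    obtain ⟨h1, h2⟩ := hren (σ ⊕ Fin (n + 1)) (Option (σ ⊕ Fin n)) ι e w' p P
      (by simpa [w'] using hP)
    have hq0 : IsWeightedHomogeneous (fun v => w' (some v))
        (rename (Sum.inl : σ → σ ⊕ Fin n) (q (Fin.last n))) (w' none) := by
      exact Gr.rename_hom (W := fun v => w' (some v)) (fun v => w (Sum.inl v)) Sum.inl (fun v => rfl) (hq (Fin.last n))
    obtain ⟨Q, hQ, hPQ, hcQ⟩ := hvar.2 (σ ⊕ Fin n) ι w' hw' p hp _ _ h1 hq0 (hl _)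
    obtain ⟨Q', hQ', hQQ', hcQ'⟩ := ih σ (fun v => w' (some v)) (fun v => hw' _) Q
      (fun j => q j.castSucc) hQ (fun j => hq _) (fun j => hl _)
    refine ⟨Q', hQ', ?_, hcQ'.trans (hcQ.trans h2.le)⟩
    refine le_trans ?_ ((Ideal.map_mono hPQ).trans hQQ')
    rw [Ideal.map_le_iff_le_comap]
    intro g hg
    rw [Ideal.mem_comap]
    have hcomp : (aeval (Sum.elim X fun j => q j.castSucc) :
        MvPolynomial (σ ⊕ Fin n) ℂ →ₐ[ℂ] MvPolynomial σ ℂ).comp
        ((aeval fun v : Option (σ ⊕ Fin n) => v.elim (rename Sum.inl (q (Fin.last n))) X).comp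
          (rename e)) = aeval (Sum.elim X q) := by
      refine algHom_ext fun v => ?_
      rcases v with v | j
      · simp [e]
      · induction j using Fin.lastCases with
        | last => simp [e, bind₁_rename, Sum.elim_comp_inl]
        | cast j => simp [e]
    rw [← hcomp]
    exact Ideal.mem_map_of_mem _ (Ideal.mem_map_of_mem _ (Ideal.mem_map_of_mem _ hg))

/-- Finitely many variables of degree zero modulo `p` can be eliminated. -/
theorem elim (hren : RenamePin) (hvar : VarPin) (hp : p.Prime) {σ τ : Type} [Fintype σ] [Fintype τ]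
    (w : σ ⊕ τ → ι →₀ ℕ) (hw : ∀ v, w v ≠ 0) (P : Ideal (MvPolynomial (σ ⊕ τ) ℂ))
    (q : τ → MvPolynomial σ ℂ) (hP : Good w p P)
    (hq : ∀ j, IsWeightedHomogeneous (fun v => w (Sum.inl v)) (q j) (w (Sum.inr j)))
    (hl : ∀ j, lin p (w (Sum.inr j)) = 0) :
    ∃ Q : Ideal (MvPolynomial σ ℂ), Good (fun v => w (Sum.inl v)) p Q ∧
      P.map (aeval (Sum.elim X q) : MvPolynomial (σ ⊕ τ) ℂ →ₐ[ℂ] MvPolynomial σ ℂ) ≤ Q ∧
      codim Q ≤ codim P := by
  let eτ := Fintype.equivFin τ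
  let e : σ ⊕ τ ≃ σ ⊕ Fin (Fintype.card τ) := Equiv.sumCongr (Equiv.refl σ) eτ
  obtain ⟨h1, h2⟩ := hren (σ ⊕ τ) _ ι e (fun v => w (e.symm v)) p P (by simpa using hP)
  obtain ⟨Q, hQ, hPQ, hc⟩ := elimFin hren hvar hp _ σ (fun v => w (e.symm v)) (fun v => hw _) _
    (fun j => q (eτ.symm j)) h1 (fun j => hq _) (fun j => hl _)
  refine ⟨Q, hQ, le_trans ?_ hPQ, hc.trans h2.le⟩
  rw [Ideal.map_le_iff_le_comap]
  intro g hg
  rw [Ideal.mem_comap]
  have hcomp : (aeval (Sum.elim X fun j => q (eτ.symm j)) :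
      MvPolynomial (σ ⊕ Fin (Fintype.card τ)) ℂ →ₐ[ℂ] MvPolynomial σ ℂ).comp (rename e) =
      aeval (Sum.elim X q) := by
    refine algHom_ext fun v => ?_
    rcases v with v | j <;> simp [e]
  rw [← hcomp]
  exact Ideal.mem_map_of_mem _ (Ideal.mem_map_of_mem _ hg)

/-- Cutting by finitely many equations of nonzero degree modulo `p`. -/
theorem cuts (hcut : CutPin) (hp : p.Prime) {σ : Type} [Fintype σ] (w : σ → ι →₀ ℕ)
    (hw : ∀ v, w v ≠ 0) {β : Type} (g : β → MvPolynomial σ ℂ) (d : β → ι →₀ ℕ)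
    (hg : ∀ b, IsWeightedHomogeneous w (g b) (d b)) (hd : ∀ b, lin p (d b) ≠ 0)
    (s : Finset β) (P : Ideal (MvPolynomial σ ℂ)) (hP : Good w p P) :
    ∃ Q, Good w p Q ∧ P ≤ Q ∧ (∀ b ∈ s, g b ∈ Q) ∧ codim Q ≤ codim P + s.card := by
  classical
  induction s using Finset.induction_on with
  | empty => exact ⟨P, hP, le_rfl, by simp, by simp⟩
  | insert b s hb ih =>
    obtain ⟨Q, hQ, hPQ, hsQ, hc⟩ := ih
    obtain ⟨Q', hQ', hQQ', hgQ', hc'⟩ := hcut.2 σ ι w hw p hp Q (g b) (d b) hQ (hg b) (hd b)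
    refine ⟨Q', hQ', hPQ.trans hQQ', fun c hc => ?_, ?_⟩
    · rcases Finset.mem_insert.1 hc with rfl | hc
      exacts [hgQ', hQQ' (hsQ c hc)]
    · rw [Finset.card_insert_of_notMem hb]
      omega

/-- A good prime misses the variables of degree zero modulo `p`. -/
theorem notMem (hvar : VarPin) (hp : p.Prime) {σ : Type} [Fintype σ] (w : σ → ι →₀ ℕ)
    (hw : ∀ v, w v ≠ 0) (P : Ideal (MvPolynomial σ ℂ)) (hP : Good w p P) (v : σ)
    (hv : lin p (w v) = 0) : (X v : MvPolynomial σ ℂ) ∉ P := by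
  intro h
  have := hvar.1 σ ι w hw p hp P {v} hP.1 hP.2.1 (by simpa using h)
  rw [Finset.prod_singleton, hv, zero_dvd_iff] at this
  exact hP.2.2 this

end Vale.Agent.P199.K.Elim
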